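import Vale.Agent.P076.H18.Final
import Vale.Agent.P076.H791.Law

open MeasureTheory Complex Filter Topology
open scoped ENNReal
open Vale.Agent.P076 Vale.Agent.P076.H791

/-- The zero-one law at the Sobolev endpoint `s_n = n/(2(n+1))` of Carleson's problem ((1), and
(2) for every measurable weight), and sharp statements around the endpoint, for data in `C₀(ℝⁿ)`,
with divergence at every point ((3) - (7)). -/
theorem Vale.Agent.Results.P076.ZeroOneLaw.result (n : ℕ) (hn : 2 ≤ n) :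
    -- (1) `H^{s_n}`: the answer to Q1 is positive iff strong convergence holds, and it is negative
    -- iff one `f` blows up almost everywhere along one discrete set of times
    (((∀ f g : (Fin n → ℝ) → ℂ, IsFourierPair f g →
          Integrable (fun ξ => (1 + nrm ξ ^ 2) ^ critExp n * ‖g ξ‖ ^ 2) → ConvergesAE f g) ↔
        ∀ f g : (Fin n → ℝ) → ℂ, IsFourierPair f g →
          Integrable (fun ξ => (1 + nrm ξ ^ 2) ^ critExp n * ‖g ξ‖ ^ 2) →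
            ConvergesStrongly f g) ∧
      ((¬ ∀ f g : (Fin n → ℝ) → ℂ, IsFourierPair f g →
          Integrable (fun ξ => (1 + nrm ξ ^ 2) ^ critExp n * ‖g ξ‖ ^ 2) → ConvergesAE f g) ↔
        ∃ f g : (Fin n → ℝ) → ℂ, IsFourierPair f g ∧
          Integrable (fun ξ => (1 + nrm ξ ^ 2) ^ critExp n * ‖g ξ‖ ^ 2) ∧ BlowsUpAlongSet g)) ∧
    -- (2) the same for every measurable weight `w ≥ 1`
    (∀ w : (Fin n → ℝ) → ℝ≥0∞, Measurable w → (∀ ξ, 1 ≤ w ξ) →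
      ((∀ f g : (Fin n → ℝ) → ℂ, IsFourierPair f g → ∫⁻ ξ, w ξ * ‖g ξ‖ₑ ^ 2 < ⊤ →
          ConvergesAE f g) ↔
        ∀ f g : (Fin n → ℝ) → ℂ, IsFourierPair f g → ∫⁻ ξ, w ξ * ‖g ξ‖ₑ ^ 2 < ⊤ →
          ConvergesStrongly f g) ∧
      ((¬ ∀ f g : (Fin n → ℝ) → ℂ, IsFourierPair f g → ∫⁻ ξ, w ξ * ‖g ξ‖ₑ ^ 2 < ⊤ →
          ConvergesAE f g) ↔
        ∃ f g : (Fin n → ℝ) → ℂ, IsFourierPair f g ∧ ∫⁻ ξ, w ξ * ‖g ξ‖ₑ ^ 2 < ⊤ ∧
          BlowsUpAlongSet g)) ∧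
    -- (3) frequency shells with prescribed sizes `a i`, `∑ (a i)^(2+2/n) = ∞`
    (∀ a : ℕ → ℝ, (∀ i, 0 < a i) → (¬ Summable fun i => a i ^ (2 + 2 / (n : ℝ))) →
      ∀ A : Set ℕ, A.Infinite → ∃ (k : ℕ → ℕ) (f g : (Fin n → ℝ) → ℂ), IsFourierPair f g ∧
        IsC0 f ∧ StrictMono k ∧ (∀ i, k i ∈ A) ∧
          (∀ᵐ ξ, g ξ ≠ 0 → ∃ i, 2 ^ k i ≤ nrm ξ ∧ nrm ξ < 2 ^ (k i + 1)) ∧
          (∀ i, 2 ^ (k i * critExp n) * shellL2 g (k i) ≤ a i) ∧ BlowUpEverywhere g) ∧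
    -- (4) the Besov spaces `B^{s_n}_{2,q}`, `q > 2 + 2/n`
    (∃ f g : (Fin n → ℝ) → ℂ, IsFourierPair f g ∧ IsC0 f ∧ BlowUpEverywhere g ∧
      ∀ q : ℝ, 2 + 2 / (n : ℝ) < q →
        Summable fun j : ℕ => (2 ^ (j * critExp n) * shellL2 g j) ^ q) ∧
    -- (5) radial weights `w` with `liminf w(r) / r^(2 s_n) = 0`
    (∀ w : ℝ → ℝ, Monotone w → (∀ r, 0 ≤ w r) →
      (∀ ε > 0, ∃ᶠ r in atTop, w r ≤ ε * r ^ (2 * critExp n)) →
        ∃ f g : (Fin n → ℝ) → ℂ, IsFourierPair f g ∧ IsC0 f ∧ BlowUpEverywhere g ∧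
          Integrable fun ξ => w (nrm ξ) * ‖g ξ‖ ^ 2) ∧
    -- (6) no rate of convergence at any point in `H^{s_n}`
    (∀ ω : ℝ → ℝ, Tendsto ω (𝓝[>] 0) (𝓝 0) →
      ∃ f g : (Fin n → ℝ) → ℂ, IsFourierPair f g ∧ IsC0 f ∧
        Integrable (fun ξ => (1 + nrm ξ ^ 2) ^ critExp n * ‖g ξ‖ ^ 2) ∧
        ∃ u : ℝ → (Fin n → ℝ) → ℂ,
          (∀ t > 0, ∀ x, Tendsto (fun a => evolve g t a x) (𝓝[>] 0) (𝓝 (u t x))) ∧
          ∀ x, ∀ M : ℝ, ∃ᶠ t in 𝓝[>] (0 : ℝ), M * |ω t| < ‖u t x - f x‖) ∧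
    -- (7) divergence in `H^{s_n}` on sets of infinite gauge measure, `φ(r)/r^n → ∞`
    (∀ φ : ℝ≥0∞ → ℝ≥0∞, Tendsto (fun r => φ r / r ^ n) (𝓝[>] 0) (𝓝 ⊤) →
      ∃ f g : (Fin n → ℝ) → ℂ, IsFourierPair f g ∧ IsC0 f ∧
        Integrable (fun ξ => (1 + nrm ξ ^ 2) ^ critExp n * ‖g ξ‖ ^ 2) ∧
        ∃ u : ℝ → (Fin n → ℝ) → ℂ,
          (∀ t > 0, ∀ x, Tendsto (fun a => evolve g t a x) (𝓝[>] 0) (𝓝 (u t x))) ∧
          Measure.mkMetric φ {x : EuclideanSpace ℝ (Fin n) |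
            ∀ M : ℝ, ∃ᶠ t in 𝓝[>] (0 : ℝ), M < ‖u t x.ofLp‖} = ⊤) := by
  have hn1 : 1 ≤ n := by omega
  have hU := unifiedConclusion0 hn1
  have hs0 : 0 ≤ critExp n := by
    unfold critExp
    positivity
  refine ⟨lawH hs0, fun w hw hw1 => law w hw hw1, fun a ha hs A hA => ?_, ?_, fun w hw hw0 hl => ?_, fun ω hω => ?_, fun φ hφ => ?_⟩
  · obtain ⟨k, hk, hkA, f, u, z, h1, h2, hz, hc, h0, h3, h4⟩ := hU a ha hs A hA
    refine ⟨k, fun x => z (toE x), freq f, fourierPair_of hz, isC0_comp hc h0, hk, hkA, ?_, ?_,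
      blowUpEverywhere_of h3 h4⟩
    · filter_upwards [ae_toE h1] with ξ hξ
      simpa only [nrm_eq, freq] using hξ
    · simpa only [shellL2_freq, critExp_eq] using h2
  · obtain ⟨f, u, z, h1, hz, hc, h0, h2, h3⟩ := besov0 hn1 hU
    refine ⟨fun x => z (toE x), freq f, fourierPair_of hz, isC0_comp hc h0,
      blowUpEverywhere_of h2 h3, ?_⟩
    simpa only [shellL2_freq, critExp_eq] using h1
  · obtain ⟨f, u, z, h1, hz, hc, h0, h2, h3⟩ := weights0 hn1 hU hw hw0 hl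
    refine ⟨fun x => z (toE x), freq f, fourierPair_of hz, isC0_comp hc h0,
      blowUpEverywhere_of h2 h3, ?_⟩
    simp only [nrm_eq]
    exact measurePreserving_toE.integrable_comp_of_integrable h1
  · obtain ⟨m, rfl⟩ : ∃ m, n = m + 1 := ⟨n - 1, by omega⟩
    obtain ⟨C, hC, hB⟩ := exists_block0 m
    obtain ⟨f, u, z, h1, hz, hc, h0, h2, h3⟩ := noRate0 hn1 hC hB hω
    refine ⟨fun x => z (toE x), freq f, fourierPair_of hz, isC0_comp hc h0, ?_,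
      fun t x => u t (toE x), fun t ht x => ?_, fun x => h3 (toE x)⟩
    · simp only [nrm_eq]
      exact measurePreserving_toE.integrable_comp_of_integrable h1
    · simp_rw [evolve_freq]
      exact h2 t ht (toE x)
  · obtain ⟨m, rfl⟩ : ∃ m, n = m + 2 := ⟨n - 2, by omega⟩
    obtain ⟨f, u, z, h1, hz, hc, h0, h2, h3⟩ := gaugeDiv0 m hφ
    refine ⟨fun x => z (toE x), freq f, fourierPair_of hz, isC0_comp hc h0, ?_,
      fun t x => u t (toE x), fun t ht x => ?_, h3⟩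
    · simp only [nrm_eq]
      exact measurePreserving_toE.integrable_comp_of_integrable h1
    · simp_rw [evolve_freq]
      exact h2 t ht (toE x)
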